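import Vale.Agent.P225.Group.Targets.Defs

/-!
P225, module D: words with fixed letters whose times depend affinely on parameters.
-/

noncomputable section

namespace Vale.Agent.P225

open NormedSpace Matrix SU2
open scoped ComplexOrder Kronecker Matrix.Norms.L2Operator

variable {β : Finset (ℕ × ℕ)} {κ : ℕ × ℕ → ℝ} {m : ℕ}

/-- `F` is the value of one word with fixed letters and affine times. -/
def AffWord (β : Finset (ℕ × ℕ)) (κ : ℕ × ℕ → ℝ) {m : ℕ} (F : (Fin m → ℝ) → BlkAlg β) : Prop :=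
  ∃ (n : ℕ) (i : Fin n → Fin 3 × Fin 3) (x0 : Fin n → ℝ) (P : (Fin m → ℝ) →L[ℝ] (Fin n → ℝ)),
    ∀ y, ctrlWord β κ i (x0 + P y) = F y

theorem AffWord.one : AffWord β κ (fun _ : Fin m → ℝ => (1 : BlkAlg β)) :=
  ⟨0, Fin.elim0, Fin.elim0, 0, fun y => by simp [ctrlWord]⟩

theorem AffWord.letter (j : Fin 3 × Fin 3) (s : ℝ) :
    AffWord β κ (fun _ : Fin m → ℝ => exp (s • ctrlGen β κ j)) :=
  ⟨1, fun _ => j, fun _ => s, 0, fun y => by simp [ctrlWord]⟩

theorem AffWord.param (j : Fin 3 × Fin 3) (k : Fin m) :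
    AffWord β κ (fun y : Fin m → ℝ => exp (y k • ctrlGen β κ j)) :=
  ⟨1, fun _ => j, 0, ContinuousLinearMap.pi fun _ => ContinuousLinearMap.proj k,
    fun y => by simp [ctrlWord]⟩

theorem AffWord.mul {F G : (Fin m → ℝ) → BlkAlg β} (hF : AffWord β κ F) (hG : AffWord β κ G) :
    AffWord β κ fun y => F y * G y := by
  obtain ⟨a, i, x, P, hP⟩ := hF
  obtain ⟨b, j, z, Q, hQ⟩ := hG
  let PQ : (Fin m → ℝ) →ₗ[ℝ] (Fin (a + b) → ℝ) :=
    { toFun := fun y => Fin.append (P y) (Q y)
      map_add' := fun y y' => by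
        funext k; refine Fin.addCases (fun k => ?_) (fun k => ?_) k <;> simp
      map_smul' := fun c y => by
        funext k; refine Fin.addCases (fun k => ?_) (fun k => ?_) k <;> simp }
  refine ⟨a + b, Fin.append i j, Fin.append x z, LinearMap.toContinuousLinearMap PQ, fun y => ?_⟩
  have : Fin.append x z + LinearMap.toContinuousLinearMap PQ y =
      Fin.append (x + P y) (z + Q y) := by
    funext k; refine Fin.addCases (fun k => ?_) (fun k => ?_) k <;> simp [PQ]
  simp only
  rw [this, ← hP, ← hQ, ctrlWord, ctrlWord, ctrlWord, ← List.prod_append, ← List.ofFn_fin_append]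
  congr 2
  funext k
  refine Fin.addCases (fun k => ?_) (fun k => ?_) k <;> simp

theorem AffWord.comp {F : (Fin m → ℝ) → BlkAlg β} (hF : AffWord β κ F) {l : ℕ}
    (Q : (Fin l → ℝ) →L[ℝ] (Fin m → ℝ)) : AffWord β κ fun y => F (Q y) := by
  obtain ⟨a, i, x, P, hP⟩ := hF
  exact ⟨a, i, x, P.comp Q, fun y => hP (Q y)⟩

theorem AffWord.list_prod (l : List ((Fin m → ℝ) → BlkAlg β)) (h : ∀ F ∈ l, AffWord β κ F) :
    AffWord β κ fun y => (l.map fun F => F y).prod := by
  induction l with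
  | nil => exact AffWord.one
  | cons F l ih =>
    simpa using (h F List.mem_cons_self).mul (ih fun G hG => h G (List.mem_cons_of_mem _ hG))

end Vale.Agent.P225
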