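import Mathlib

/-!
P225, module D: real forms of complex matrix algebras cut out by a conjugation, complex spans of
real subspaces, commutators, and the derivative of the determinant at the identity.
-/

noncomputable section

namespace Vale.Agent.P225

open Matrix Complex
open scoped Matrix.Norms.L2Operator

variable {n : Type*} [Fintype n] [DecidableEq n] {J J' : Matrix n n ℂ}

omit [DecidableEq n] in
theorem map_star_mul (M N : Matrix n n ℂ) : (M * N).map star = M.map star * N.map star :=
  Matrix.map_mul (f := starRingEnd ℂ)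

/-- The real algebra fixed by the conjugation `M ↦ J M̄ J⁻¹`. -/
def realForm (J : Matrix n n ℂ) : Subalgebra ℝ (Matrix n n ℂ) where
  carrier := {M | J * M.map star = M * J}
  mul_mem' {M N} hM hN := by
    simp only [Set.mem_ofPred_eq] at *
    rw [map_star_mul, ← mul_assoc, hM, mul_assoc, hN, mul_assoc]
  add_mem' {M N} hM hN := by
    simp only [Set.mem_ofPred_eq] at *
    rw [Matrix.map_add star star_add, mul_add, add_mul, hM, hN]
  algebraMap_mem' r := by
    have : (algebraMap ℝ (Matrix n n ℂ) r).map star = algebraMap ℝ (Matrix n n ℂ) r := by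
      ext i j
      by_cases h : i = j <;> simp [Algebra.algebraMap_eq_smul_one, h]
    simp only [Set.mem_ofPred_eq, this]
    exact (Algebra.commutes r J).symm

theorem mem_realForm {M : Matrix n n ℂ} : M ∈ realForm J ↔ J * M.map star = M * J := Iff.rfl

theorem realForm_eq_zero (hJ : J * J' = 1) {z : Matrix n n ℂ} (hz : z ∈ realForm J)
    (hz' : I • z ∈ realForm J) : z = 0 := by
  rw [mem_realForm] at hz hz'
  have : (I • z).map star = -(I • z.map star) := by ext i j; simp
  rw [this, mul_neg, mul_smul_comm, hz, smul_mul_assoc] at hz'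
  have h0 : (2 * I) • (z * J) = 0 := by
    rw [mul_smul, two_smul]
    nth_rw 1 [← hz']
    exact neg_add_cancel _
  have hzJ : z * J = 0 := (smul_eq_zero.1 h0).resolve_left (by simp)
  rw [← mul_one z, ← hJ, ← mul_assoc, hzJ, zero_mul]

/-- The trace on the real form is real. -/
theorem realForm_trace (hJ : J * J' = 1) {M : Matrix n n ℂ} (hM : M ∈ realForm J) :
    star M.trace = M.trace := by
  have h1 : (M.map star).trace = star M.trace := by simp [Matrix.trace, star_sum]
  have h2 : J * M.map star * J' = M := by rw [mem_realForm.1 hM, mul_assoc, hJ, mul_one]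
  have h3 : J' * J = 1 := mul_eq_one_comm.1 hJ
  rw [← h1]
  conv_rhs => rw [← h2, Matrix.trace_mul_comm, ← mul_assoc, h3, one_mul]

section span

variable {V : Type*} [AddCommGroup V] [Module ℂ V]

theorem span_complex_decomp (U : Submodule ℝ V) {x : V}
    (hx : x ∈ Submodule.span ℂ (U : Set V)) : ∃ y ∈ U, ∃ z ∈ U, x = y + I • z := by
  induction hx using Submodule.span_induction with
  | mem x hx => exact ⟨x, hx, 0, U.zero_mem, by simp⟩
  | zero => exact ⟨0, U.zero_mem, 0, U.zero_mem, by simp⟩
  | add x x' _ _ h h' =>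
    obtain ⟨y, hy, z, hz, rfl⟩ := h
    obtain ⟨y', hy', z', hz', rfl⟩ := h'
    exact ⟨_, U.add_mem hy hy', _, U.add_mem hz hz', by rw [smul_add]; abel⟩
  | smul c x _ h =>
    obtain ⟨y, hy, z, hz, rfl⟩ := h
    refine ⟨c.re • y - c.im • z, U.sub_mem (U.smul_mem _ hy) (U.smul_mem _ hz),
      c.im • y + c.re • z, U.add_mem (U.smul_mem _ hy) (U.smul_mem _ hz), ?_⟩
    simp only [← Complex.coe_smul]
    conv_lhs => rw [← Complex.re_add_im c]
    match_scalars <;> ring_nf <;> simp [Complex.I_sq] <;> ring

end span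

/-- A real subspace of the real form is recovered from its complex span. -/
theorem mem_of_span_complex (hJ : J * J' = 1) {U : Submodule ℝ (Matrix n n ℂ)}
    (hU : U ≤ (realForm J).toSubmodule) {x : Matrix n n ℂ} (hx : x ∈ realForm J)
    (hx' : x ∈ Submodule.span ℂ (U : Set (Matrix n n ℂ))) : x ∈ U := by
  obtain ⟨y, hy, z, hz, rfl⟩ := span_complex_decomp U hx'
  have hz' : I • z ∈ realForm J := by
    simpa using (realForm J).sub_mem hx (hU hy)
  rw [realForm_eq_zero hJ (hU hz) hz']
  simpa using hy

/-- Commutators are controlled by a spanning set. -/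
theorem comm_mem_of_span_top {G : Set (Matrix n n ℂ)} (hG : Submodule.span ℂ G = ⊤)
    {V : Submodule ℂ (Matrix n n ℂ)} (h : ∀ p ∈ G, ∀ q ∈ G, p * q - q * p ∈ V)
    (x y : Matrix n n ℂ) : x * y - y * x ∈ V := by
  have hy : y ∈ Submodule.span ℂ G := hG ▸ Submodule.mem_top
  have hx : x ∈ Submodule.span ℂ G := hG ▸ Submodule.mem_top
  induction hy using Submodule.span_induction with
  | mem q hq =>
    induction hx using Submodule.span_induction with
    | mem p hp => exact h p hp q hq
    | zero => simp
    | add a b _ _ ha hb =>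
      rw [add_mul, mul_add, add_sub_add_comm]; exact V.add_mem ha hb
    | smul c a _ ha =>
      rw [smul_mul_assoc, mul_smul_comm, ← smul_sub]; exact V.smul_mem c ha
  | zero => simp
  | add a b _ _ ha hb => rw [add_mul, mul_add, add_sub_add_comm]; exact V.add_mem ha hb
  | smul c a _ ha => rw [smul_mul_assoc, mul_smul_comm, ← smul_sub]; exact V.smul_mem c ha

/-- Traceless matrices are spanned by brackets of commutators. -/
theorem traceless_mem_of_comm {V : Submodule ℂ (Matrix n n ℂ)}
    (h : ∀ a b c d : Matrix n n ℂ,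
      (a * b - b * a) * (c * d - d * c) - (c * d - d * c) * (a * b - b * a) ∈ V)
    {M : Matrix n n ℂ} (hM : M.trace = 0) : M ∈ V := by
  classical
  set E : n → n → Matrix n n ℂ := fun i j => Matrix.single i j 1 with hE
  have hmul : ∀ i j k l, E i j * E k l = if j = k then E i l else 0 := by
    intro i j k l
    simp only [hE]
    split_ifs with h
    · subst h; simp
    · simp [h]
  have hoff : ∀ i j, i ≠ j → E i j ∈ V := by
    intro i j hij
    have := h (E i j) (E j i) (E i i) (E i j)
    simp only [hmul, if_pos, if_neg hij.symm, sub_zero, sub_mul, mul_sub] at this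
    have e : (2 : ℂ) • E i j ∈ V := by
      rw [two_smul]
      convert this using 1
      abel
    simpa using V.smul_mem (2⁻¹ : ℂ) e
  have hdiag : ∀ i j, E i i - E j j ∈ V := by
    intro i j
    rcases eq_or_ne i j with rfl | hij
    · simp
    have := h (E i i) (E i j) (E j j) (E j i)
    simp only [hmul, if_pos, if_neg hij, if_neg hij.symm, sub_zero] at this
    exact this
  rcases isEmpty_or_nonempty n with hn | ⟨⟨i0⟩⟩
  · rw [Subsingleton.elim M 0]; exact V.zero_mem
  have hsum : M = ∑ i, ∑ j, M i j • (E i j - if i = j then E i0 i0 else 0) := by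
    conv_lhs => rw [Matrix.matrix_eq_sum_single M]
    simp only [smul_sub, smul_ite, smul_zero, Finset.sum_sub_distrib, Finset.sum_ite_eq,
      Finset.mem_univ, if_true, ← Finset.sum_smul]
    rw [show ∑ i, M i i = 0 from hM, zero_smul, sub_zero]
    simp [hE, Matrix.smul_single]
  rw [hsum]
  refine V.sum_mem fun i _ => V.sum_mem fun j _ => V.smul_mem _ ?_
  split_ifs with hij
  · subst hij; exact hdiag i i0
  · simpa using hoff i j hij

/-- The determinant has derivative `trace` at the identity, strictly. -/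
theorem det_hasStrictFDerivAt_one :
    ∃ D : Matrix n n ℂ →L[ℝ] ℂ, (∀ X, D X = X.trace) ∧
      HasStrictFDerivAt (fun M : Matrix n n ℂ => M.det) D 1 := by
  let e : Matrix n n ℂ →L[ℂ] (n → n → ℂ) :=
    LinearMap.toContinuousLinearMap
      { toFun := fun M i j => M i j, map_add' := fun _ _ => rfl, map_smul' := fun _ _ => rfl }
  let f : ContinuousMultilinearMap ℂ (fun _ : n => n → ℂ) ℂ :=
    { toMultilinearMap := (Matrix.detRowAlternating (R := ℂ) (n := n)).toMultilinearMap
      cont := by
        show Continuous fun v : n → n → ℂ => (Matrix.of v).det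
        exact Continuous.matrix_det continuous_id }
  have h := ((f.hasStrictFDerivAt (e 1)).comp (1 : Matrix n n ℂ) e.hasStrictFDerivAt).restrictScalars ℝ
  refine ⟨_, fun X => ?_, h⟩
  change f.linearDeriv (e 1) (e X) = _
  rw [ContinuousMultilinearMap.linearDeriv_apply, Matrix.trace]
  refine Finset.sum_congr rfl fun i _ => ?_
  show (Matrix.updateRow (1 : Matrix n n ℂ) i (X i)).det = X i i
  have hr : X i = ∑ j, X i j • (1 : Matrix n n ℂ) j := by
    funext k; simp [Matrix.one_apply]
  conv_lhs => rw [hr]
  rw [Matrix.det_updateRow_sum]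
  simp

theorem det_exp_smul [Nonempty n] {X : Matrix n n ℂ} (hX : X.trace = 0) (t : ℝ) :
    (NormedSpace.exp (t • X)).det = 1 := by
  obtain ⟨D, hD, hd⟩ := det_hasStrictFDerivAt_one (n := n)
  let : NormedAlgebra ℚ (Matrix n n ℂ) := NormedAlgebra.restrictScalars ℚ ℝ _
  have key : ∀ s : ℝ, HasDerivAt (fun u : ℝ => (NormedSpace.exp (u • X)).det) 0 s := by
    intro s
    have e : (fun u : ℝ => (NormedSpace.exp (u • X)).det) =
        fun u => (NormedSpace.exp ((u - s) • X)).det * (NormedSpace.exp (s • X)).det := by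
      funext u
      rw [← Matrix.det_mul, ← NormedSpace.exp_add_of_commute
        ((Commute.refl X).smul_left _ |>.smul_right _), ← add_smul, sub_add_cancel]
    rw [e]
    have h1 : HasDerivAt (fun u : ℝ => (NormedSpace.exp (u • X)).det) (D X) 0 := by
      have h0 := hasDerivAt_exp_smul_const X (0 : ℝ)
      simp only [zero_smul, NormedSpace.exp_zero, one_mul] at h0
      exact hd.hasFDerivAt.comp_hasDerivAt_of_eq (0 : ℝ) h0 (by simp)
    have h2 : HasDerivAt (fun u : ℝ => (NormedSpace.exp ((u - s) • X)).det) (D X) s := by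
      have := h1
      rw [← sub_self s] at this
      exact this.comp_sub_const s s
    have h3 := h2.mul_const (NormedSpace.exp (s • X)).det
    rwa [hD, hX, zero_mul] at h3
  have := is_const_of_deriv_eq_zero (fun s => (key s).differentiableAt)
    (fun s => (key s).deriv) t 0
  simpa using this

/-- Two nearby matrices of equal determinant cannot differ by a nonzero real scalar. -/
theorem exists_nhds_det_scalar [Nonempty n] :
    ∃ W ∈ nhds (1 : Matrix n n ℂ), ∀ u ∈ W, ∀ v ∈ W, ∀ c : ℂ,
      u - v = c • 1 → u.det = v.det → u = v := by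
  obtain ⟨D, hD, hd⟩ := det_hasStrictFDerivAt_one (n := n)
  have hb := hd.isLittleO.def (show (0 : ℝ) < (1/2) by norm_num)
  obtain ⟨W, hW, hWW⟩ : ∃ W ∈ nhds (1 : Matrix n n ℂ), ∀ u ∈ W, ∀ v ∈ W,
      ‖u.det - v.det - D (u - v)‖ ≤ 1/2 * ‖u - v‖ := by
    obtain ⟨W, hW, h⟩ := Filter.eventually_iff_exists_mem.1 hb
    rw [nhds_prod_eq] at hW
    obtain ⟨A, hA, B, hB, hAB⟩ := Filter.mem_prod_iff.1 hW
    exact ⟨A ∩ B, Filter.inter_mem hA hB, fun u hu v hv => h (u, v) (hAB ⟨hu.1, hv.2⟩)⟩
  refine ⟨W, hW, fun u hu v hv c hc hdet => ?_⟩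
  have := hWW u hu v hv
  rw [hdet, sub_self, zero_sub, norm_neg, hc, hD, Matrix.trace_smul, Matrix.trace_one, norm_smul,
    norm_smul, norm_one, mul_one, Complex.norm_natCast] at this
  have hcard : (1 : ℝ) ≤ Fintype.card n := by exact_mod_cast Fintype.card_pos
  have hc0 : ‖c‖ = 0 := by nlinarith [norm_nonneg c]
  rw [norm_eq_zero.1 hc0, zero_smul, sub_eq_zero] at hc
  exact hc

end Vale.Agent.P225
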