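import Vale.Agent.P225.Group.Targets.Defs
import Vale.Agent.P225.Group.Targets.Real

/-!
P225, module D: one block. A bracket-closed subspace containing `S_i`, `T_k` and `S_i T_k`
contains every traceless element of the real form of the block.
-/

noncomputable section

namespace Vale.Agent.P225

open NormedSpace Matrix SU2 Complex
open scoped ComplexOrder Kronecker Matrix.Norms.L2Operator

/-- Action of a generator on the coefficients of one spin. -/
def coGen (a : ℕ) (k : Fin 3) : Matrix (Fin (a + 1)) (Fin (a + 1)) ℂ := (gen a k).map star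

theorem neg_gen_transpose (a : ℕ) (k : Fin 3) : -(gen a k)ᵀ = coGen a k := by
  have h := gen_skew a k
  have : ((gen a k)ᴴ)ᵀ = -(gen a k)ᵀ := by rw [h, Matrix.transpose_neg]
  rw [← this, coGen, Matrix.conjTranspose, Matrix.transpose_map, Matrix.transpose_transpose]

theorem conjJ_mul_inv (a : ℕ) :
    conjJ a * (((-1 : ℂ) ^ a) • (conjJ a).map star) = 1 := by
  rw [mul_smul_comm, conjJ_sq, smul_smul, ← mul_pow]
  simp

theorem conjJ_map_star (a : ℕ) : (conjJ a).map star = conjJ a := by
  have h : conjJ a * (conjJ a).map star = conjJ a * conjJ a := rep_real a (imUnit 1)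
  have hl := mul_eq_one_comm.1 (conjJ_mul_inv a)
  have := congrArg (fun M => (((-1 : ℂ) ^ a) • (conjJ a).map star) * M) h
  simpa only [← mul_assoc, hl, one_mul] using this

theorem coGen_real (a : ℕ) (k : Fin 3) : coGen a k ∈ realForm (conjJ a) := by
  rw [mem_realForm]
  have h := congrArg (fun M => M.map star) (gen_real a k)
  simp only [map_star_mul, conjJ_map_star, Matrix.map_map] at h
  simpa [coGen, Matrix.map_map, Function.comp_def] using h

theorem coGen_bracket (a : ℕ) (k : Fin 3) :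
    coGen a (k + 1) * coGen a (k + 2) - coGen a (k + 2) * coGen a (k + 1) = coGen a k := by
  have h := congrArg (fun M => M.map star) (gen_bracket a k)
  rw [Matrix.map_sub star star_sub, map_star_mul, map_star_mul] at h
  exact h

theorem coGen_casimir (a : ℕ) : ∑ k, coGen a k * coGen a k =
    (-cas a) • (1 : Matrix (Fin (a + 1)) (Fin (a + 1)) ℂ) := by
  have h := congrArg (fun M => M.map star) (gen_casimir a)
  simp only [Fin.sum_univ_three] at h ⊢
  rw [Matrix.map_add star star_add, Matrix.map_add star star_add] at h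
  simp only [map_star_mul] at h
  rw [show coGen a 0 = (gen a 0).map star from rfl, show coGen a 1 = (gen a 1).map star from rfl,
    show coGen a 2 = (gen a 2).map star from rfl, h]
  ext i j
  by_cases hij : i = j <;> simp [hij]

theorem coGen_trace (a : ℕ) (k : Fin 3) : (coGen a k).trace = 0 := by
  rw [← coGen_bracket a k, Matrix.trace_sub, Matrix.trace_mul_comm, sub_self]

theorem coGen_zero (k : Fin 3) : coGen 0 k = 0 := by
  rw [← coGen_bracket 0 k, sub_eq_zero]
  ext i j
  have : Subsingleton (Fin (0 + 1)) := inferInstanceAs (Subsingleton (Fin 1))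
  have hi : i = 0 := Subsingleton.elim _ _
  have hj : j = 0 := Subsingleton.elim _ _
  simp [Matrix.mul_apply, hi, hj, mul_comm]

theorem cas_ne {a : ℕ} (ha : a ≠ 0) : -cas a ≠ 0 := by
  have : (0 : ℝ) < a := by exact_mod_cast Nat.pos_of_ne_zero ha
  unfold cas
  nlinarith

/-- The real algebra of one spin spans all matrices over `ℂ`. -/
theorem coGen_span_top (a : ℕ) :
    Submodule.span ℂ
      ((Algebra.adjoin ℝ (Set.range (coGen a))) : Set (Matrix (Fin (a + 1)) (Fin (a + 1)) ℂ)) = ⊤ := by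
  have hco : ∀ k, gen a k = (coGen a k).map star := by
    intro k; ext i j; simp [coGen]
  refine eq_top_iff.2 fun M _ => ?_
  have hM : M.map star ∈ Algebra.adjoin ℂ (Set.range (gen a)) := by
    rw [gen_adjoin_eq_top]; exact Algebra.mem_top
  rw [← Subalgebra.mem_toSubmodule, Algebra.adjoin_eq_span] at hM
  suffices ∀ N : Matrix (Fin (a + 1)) (Fin (a + 1)) ℂ,
      N ∈ Submodule.span ℂ (Submonoid.closure (Set.range (gen a)) : Set _) →
      N.map star ∈ Submodule.span ℂ
        ((Algebra.adjoin ℝ (Set.range (coGen a))) : Set (Matrix (Fin (a + 1)) (Fin (a + 1)) ℂ)) by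
    simpa [Matrix.map_map, Function.comp_def] using this _ hM
  intro N hN
  induction hN using Submodule.span_induction with
  | mem N hN =>
    refine Submodule.subset_span ?_
    induction hN using Submonoid.closure_induction with
    | mem N hN =>
      obtain ⟨k, rfl⟩ := hN
      exact Algebra.subset_adjoin ⟨k, rfl⟩
    | one => rw [Matrix.map_one star (star_zero ℂ) (star_one ℂ)]; exact Subalgebra.one_mem _
    | mul x y _ _ hx hy => rw [map_star_mul]; exact Subalgebra.mul_mem _ hx hy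
  | zero => simp
  | add x y _ _ hx hy => rw [Matrix.map_add star star_add]; exact Submodule.add_mem _ hx hy
  | smul c x _ hx =>
    rw [show (c • x).map star = star c • x.map star by ext i j; simp]
    exact Submodule.smul_mem _ _ hx

/-- Perfectness on one spin. -/
theorem commSpan_coGen (a : ℕ) : commSpan (coGen a) ≤ Submodule.span ℝ
    {x | ∃ C ∈ commSpan (coGen a), ∃ D ∈ commSpan (coGen a), C * D - D * C = x} := by
  have hJ := conjJ_mul_inv a
  have hA : famAlg (coGen a) ≤ realForm (conjJ a) :=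
    Algebra.adjoin_le (by rintro x ⟨k, rfl⟩; exact coGen_real a k)
  have hU : commSpan (coGen a) ≤ (realForm (conjJ a)).toSubmodule := Submodule.span_le.2 (by
    rintro x ⟨A, hA', B, hB', rfl⟩
    exact Subalgebra.sub_mem _ (mul_mem (hA hA') (hA hB')) (mul_mem (hA hB') (hA hA')))
  have hc : ∀ x y, x * y - y * x ∈
      Submodule.span ℂ (commSpan (coGen a) : Set (Matrix (Fin (a + 1)) (Fin (a + 1)) ℂ)) :=
    comm_mem_of_span_top (coGen_span_top a) fun p hp q hq =>
      Submodule.subset_span (Submodule.subset_span ⟨p, hp, q, hq, rfl⟩)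
  set U2 := Submodule.span ℝ
    {x | ∃ C ∈ commSpan (coGen a), ∃ D ∈ commSpan (coGen a), C * D - D * C = x}
  have hU2 : U2 ≤ (realForm (conjJ a)).toSubmodule := Submodule.span_le.2 (by
    rintro x ⟨C, hC, D, hD, rfl⟩
    exact Subalgebra.sub_mem _ (mul_mem (hU hC) (hU hD)) (mul_mem (hU hD) (hU hC)))
  intro x hx
  refine mem_of_span_complex hJ hU2 (hU hx) (traceless_mem_of_comm (fun p q r s => ?_) ?_)
  · obtain ⟨c1, h1, c2, h2, e⟩ := span_complex_decomp _ (hc p q)
    obtain ⟨d1, k1, d2, k2, e'⟩ := span_complex_decomp _ (hc r s)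
    have hm : ∀ C ∈ commSpan (coGen a), ∀ D ∈ commSpan (coGen a),
        C * D - D * C ∈ Submodule.span ℂ (U2 : Set _) := fun C hC D hD =>
      Submodule.subset_span (Submodule.subset_span ⟨C, hC, D, hD, rfl⟩)
    rw [e, e']
    convert Submodule.add_mem _ (Submodule.add_mem _ (hm _ h1 _ k1)
      (Submodule.smul_mem _ I (hm _ h1 _ k2))) (Submodule.add_mem _
      (Submodule.smul_mem _ I (hm _ h2 _ k1)) (Submodule.smul_mem _ (I * I) (hm _ h2 _ k2)))
      using 1
    simp only [add_mul, mul_add, smul_mul_assoc, mul_smul_comm, smul_sub, smul_add, smul_smul]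
    abel
  · induction hx using Submodule.span_induction with
    | mem x hx =>
      obtain ⟨A, _, B, _, rfl⟩ := hx
      rw [Matrix.trace_sub, Matrix.trace_mul_comm, sub_self]
    | zero => simp
    | add x y _ _ hx hy => rw [Matrix.trace_add, hx, hy, add_zero]
    | smul c x _ hx => rw [Matrix.trace_smul, hx, smul_zero]

/-- Perfectness passes to images. -/
theorem commSpan_map {R R' : Type*} [Ring R] [Algebra ℝ R] [Ring R'] [Algebra ℝ R']
    (φ : R →ₐ[ℝ] R') (S : Fin 3 → R)
    (h : commSpan S ≤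
      Submodule.span ℝ {x | ∃ C ∈ commSpan S, ∃ D ∈ commSpan S, C * D - D * C = x}) :
    commSpan (φ ∘ S) ≤ Submodule.span ℝ
      {x | ∃ C ∈ commSpan (φ ∘ S), ∃ D ∈ commSpan (φ ∘ S), C * D - D * C = x} := by
  have hf : famAlg (φ ∘ S) = (famAlg S).map φ := by
    rw [AlgHom.map_adjoin, ← Set.range_comp]
  have hc : commSpan (φ ∘ S) = (commSpan S).map φ.toLinearMap := by
    simp only [commSpan, Submodule.map_span]
    congr 1
    ext x
    simp only [hf, Subalgebra.mem_map, Set.mem_ofPred_eq, Set.mem_image]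
    constructor
    · rintro ⟨_, ⟨A, hA, rfl⟩, _, ⟨B, hB, rfl⟩, rfl⟩
      exact ⟨_, ⟨A, hA, B, hB, rfl⟩, by simp⟩
    · rintro ⟨_, ⟨A, hA, B, hB, rfl⟩, rfl⟩
      exact ⟨_, ⟨A, hA, rfl⟩, _, ⟨B, hB, rfl⟩, by simp⟩
  rw [hc]
  refine (Submodule.map_mono h).trans ?_
  rw [Submodule.map_span]
  refine Submodule.span_mono ?_
  rintro _ ⟨_, ⟨C, hC, D, hD, rfl⟩, rfl⟩
  exact ⟨_, Submodule.mem_map_of_mem hC, _, Submodule.mem_map_of_mem hD, by simp⟩

/-- The real structure of a block. -/
abbrev blkJ (p : ℕ × ℕ) : BlkMat p := conjJ p.1 ⊗ₖ conjJ p.2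

theorem blkJ_mul_inv (p : ℕ × ℕ) :
    blkJ p * ((((-1 : ℂ) ^ p.1) • (conjJ p.1).map star) ⊗ₖ (((-1 : ℂ) ^ p.2) • (conjJ p.2).map star))
      = 1 := by
  rw [← Matrix.mul_kronecker_mul, conjJ_mul_inv, conjJ_mul_inv, Matrix.one_kronecker_one]

theorem kronecker_map_star {m n : Type*} (A : Matrix m m ℂ) (B : Matrix n n ℂ) :
    (A ⊗ₖ B).map star = A.map star ⊗ₖ B.map star := by
  ext ⟨i, j⟩ ⟨k, l⟩
  simp

theorem kronecker_real {p : ℕ × ℕ} {A : Matrix (Fin (p.1 + 1)) (Fin (p.1 + 1)) ℂ}
    {B : Matrix (Fin (p.2 + 1)) (Fin (p.2 + 1)) ℂ} (hA : A ∈ realForm (conjJ p.1))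
    (hB : B ∈ realForm (conjJ p.2)) : A ⊗ₖ B ∈ realForm (blkJ p) := by
  rw [mem_realForm] at *
  rw [kronecker_map_star, ← Matrix.mul_kronecker_mul, hA, hB, Matrix.mul_kronecker_mul]

/-- `A ↦ A ⊗ 1`. -/
def leftHom (p : ℕ × ℕ) : Matrix (Fin (p.1 + 1)) (Fin (p.1 + 1)) ℂ →ₐ[ℝ] BlkMat p :=
  AlgHom.ofLinearMap
    { toFun := fun A => A ⊗ₖ (1 : Matrix (Fin (p.2 + 1)) (Fin (p.2 + 1)) ℂ)
      map_add' := fun A B => Matrix.add_kronecker A B _
      map_smul' := fun r A => Matrix.smul_kronecker r A _ }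
    Matrix.one_kronecker_one (fun A B => by simp [← Matrix.mul_kronecker_mul])

/-- `B ↦ 1 ⊗ B`. -/
def rightHom (p : ℕ × ℕ) : Matrix (Fin (p.2 + 1)) (Fin (p.2 + 1)) ℂ →ₐ[ℝ] BlkMat p :=
  AlgHom.ofLinearMap
    { toFun := fun B => (1 : Matrix (Fin (p.1 + 1)) (Fin (p.1 + 1)) ℂ) ⊗ₖ B
      map_add' := fun A B => Matrix.kronecker_add _ A B
      map_smul' := fun r A => Matrix.kronecker_smul r _ A }
    Matrix.one_kronecker_one (fun A B => by simp [← Matrix.mul_kronecker_mul])

theorem opS_eq (p : ℕ × ℕ) : opS p = leftHom p ∘ coGen p.1 := by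
  funext k; simp [opS, leftHom, neg_gen_transpose]

theorem opT_eq (p : ℕ × ℕ) : opT p = rightHom p ∘ coGen p.2 := by
  funext k; simp [opT, rightHom, neg_gen_transpose]

theorem opS_mul_opT (p : ℕ × ℕ) (i k : Fin 3) :
    opS p i * opT p k = coGen p.1 i ⊗ₖ coGen p.2 k := by
  simp [opS, opT, neg_gen_transpose, ← Matrix.mul_kronecker_mul]

theorem opS_opT_commute (p : ℕ × ℕ) (i k : Fin 3) : Commute (opS p i) (opT p k) := by
  simp [Commute, SemiconjBy, opS, opT, ← Matrix.mul_kronecker_mul]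

theorem opS_bracket (p : ℕ × ℕ) (k : Fin 3) :
    opS p (k + 1) * opS p (k + 2) - opS p (k + 2) * opS p (k + 1) = opS p k := by
  simp only [opS_eq, Function.comp, ← map_mul, ← map_sub, coGen_bracket]

theorem opT_bracket (p : ℕ × ℕ) (k : Fin 3) :
    opT p (k + 1) * opT p (k + 2) - opT p (k + 2) * opT p (k + 1) = opT p k := by
  simp only [opT_eq, Function.comp, ← map_mul, ← map_sub, coGen_bracket]

theorem opS_casimir (p : ℕ × ℕ) : ∑ k, opS p k * opS p k = (-cas p.1) • (1 : BlkMat p) := by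
  simp only [opS_eq, Function.comp, ← map_mul, ← map_sum, coGen_casimir, map_smul, map_one]

theorem opT_casimir (p : ℕ × ℕ) : ∑ k, opT p k * opT p k = (-cas p.2) • (1 : BlkMat p) := by
  simp only [opT_eq, Function.comp, ← map_mul, ← map_sum, coGen_casimir, map_smul, map_one]

theorem block_mem (p : ℕ × ℕ) (h1 : p.1 ≠ 0) (h2 : p.2 ≠ 0) {g : Submodule ℝ (BlkMat p)}
    (hg : IsBracketClosed g) (hS : ∀ i, opS p i ∈ g) (hT : ∀ k, opT p k ∈ g)
    (hST : ∀ i k, opS p i * opT p k ∈ g) {M : BlkMat p} (hM : IsRealBlk p M)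
    (htr : M.trace = 0) : M ∈ g := by
  have fS : IsSO3Family (opS p) (-cas p.1) :=
    ⟨fun k => ⟨k + 1, k + 2, opS_bracket p k⟩, opS_casimir p, cas_ne h1⟩
  have fT : IsSO3Family (opT p) (-cas p.2) :=
    ⟨fun k => ⟨k + 1, k + 2, opT_bracket p k⟩, opT_casimir p, cas_ne h2⟩
  have key : ∀ {A A' B B'}, A ∈ famAlg (coGen p.1) → A' ∈ famAlg (coGen p.1) →
      B ∈ famAlg (coGen p.2) → B' ∈ famAlg (coGen p.2) →
      (A ⊗ₖ B) * (A' ⊗ₖ B') - (A' ⊗ₖ B') * (A ⊗ₖ B) ∈ g := by
    intro A A' B B' hA hA' hB hB'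
    have fl : ∀ {X}, X ∈ famAlg (coGen p.1) → leftHom p X ∈ famAlg (opS p) := by
      intro X hX
      have : famAlg (opS p) = (famAlg (coGen p.1)).map (leftHom p) := by
        rw [AlgHom.map_adjoin, ← Set.range_comp, opS_eq]
      rw [this]; exact ⟨X, hX, rfl⟩
    have fr : ∀ {X}, X ∈ famAlg (coGen p.2) → rightHom p X ∈ famAlg (opT p) := by
      intro X hX
      have : famAlg (opT p) = (famAlg (coGen p.2)).map (rightHom p) := by
        rw [AlgHom.map_adjoin, ← Set.range_comp, opT_eq]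
      rw [this]; exact ⟨X, hX, rfl⟩
    have := commutator_mem hg (opS_opT_commute p) fS fT hS hT hST
      (by rw [opS_eq]; exact commSpan_map _ _ (commSpan_coGen _))
      (by rw [opT_eq]; exact commSpan_map _ _ (commSpan_coGen _))
      (fl hA) (fl hA') (fr hB) (fr hB')
    simpa [leftHom, rightHom, ← Matrix.mul_kronecker_mul] using this
  set G : Set (BlkMat p) :=
    {x | ∃ A ∈ famAlg (coGen p.1), ∃ B ∈ famAlg (coGen p.2), A ⊗ₖ B = x}
  have hG : Submodule.span ℂ G = ⊤ := by
    have hkr : ∀ X Y, X ⊗ₖ Y ∈ Submodule.span ℂ G := by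
      intro X Y
      have hX : X ∈ Submodule.span ℂ ((famAlg (coGen p.1)) : Set _) := by
        rw [coGen_span_top]; exact Submodule.mem_top
      have hY : Y ∈ Submodule.span ℂ ((famAlg (coGen p.2)) : Set _) := by
        rw [coGen_span_top]; exact Submodule.mem_top
      induction hX using Submodule.span_induction with
      | mem A hA =>
        induction hY using Submodule.span_induction with
        | mem B hB => exact Submodule.subset_span ⟨A, hA, B, hB, rfl⟩
        | zero => simp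
        | add x y _ _ hx hy => rw [Matrix.kronecker_add]; exact Submodule.add_mem _ hx hy
        | smul c x _ hx => rw [Matrix.kronecker_smul]; exact Submodule.smul_mem _ _ hx
      | zero => simp
      | add x y _ _ hx hy => rw [Matrix.add_kronecker]; exact Submodule.add_mem _ hx hy
      | smul c x _ hx => rw [Matrix.smul_kronecker]; exact Submodule.smul_mem _ _ hx
    refine eq_top_iff.2 fun X _ => ?_
    rw [Matrix.matrix_eq_sum_single X]
    refine Submodule.sum_mem _ fun u _ => Submodule.sum_mem _ fun v _ => ?_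
    have : Matrix.single u v (X u v) = X u v •
        ((Matrix.single u.1 v.1 (1 : ℂ)) ⊗ₖ (Matrix.single u.2 v.2 (1 : ℂ))) := by
      rw [Matrix.single_kronecker_single]; simp [Matrix.smul_single]
    rw [this]
    exact Submodule.smul_mem _ _ (hkr _ _)
  set U : Submodule ℝ (BlkMat p) := g ⊓ (realForm (blkJ p)).toSubmodule
  have hreal : ∀ a, famAlg (coGen a) ≤ realForm (conjJ a) := fun a =>
    Algebra.adjoin_le (by rintro x ⟨k, rfl⟩; exact coGen_real a k)
  have hcU : ∀ x y, x * y - y * x ∈ Submodule.span ℂ (U : Set (BlkMat p)) := by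
    refine comm_mem_of_span_top hG ?_
    rintro _ ⟨A, hA, B, hB, rfl⟩ _ ⟨A', hA', B', hB', rfl⟩
    have r1 := kronecker_real (p := p) (hreal _ hA) (hreal _ hB)
    have r2 := kronecker_real (p := p) (hreal _ hA') (hreal _ hB')
    exact Submodule.subset_span
      ⟨key hA hA' hB hB', Subalgebra.sub_mem _ (mul_mem r1 r2) (mul_mem r2 r1)⟩
  exact (mem_of_span_complex (blkJ_mul_inv p) inf_le_right hM
    (traceless_mem_of_comm (fun a b c d => hcU _ _) htr)).1

end Vale.Agent.P225
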