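import Vale.Agent.P225.Group.Words
import Vale.Agent.P225.Group.Blocks
import Vale.Agent.P225.SU2.Rep

/-!
P225, module D, definitions: on a finite family of gauge blocks the words in `exp (s κ S_i T_k)` reach, as
regular values, every exponential of a traceless matrix commuting with the real structure.
-/

noncomputable section

namespace Vale.Agent.P225

open NormedSpace Matrix SU2
open scoped ComplexOrder Kronecker Matrix.Norms.L2Operator

/-- Matrices on the product of two spins. -/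
abbrev BlkMat (p : ℕ × ℕ) :=
  Matrix (Fin (p.1 + 1) × Fin (p.2 + 1)) (Fin (p.1 + 1) × Fin (p.2 + 1)) ℂ

/-- The algebra of a finite family of blocks. -/
abbrev BlkAlg (β : Finset (ℕ × ℕ)) := ∀ p : β, BlkMat p.1

/-- The action on coefficients of the derivative along the first factor. -/
def opS (p : ℕ × ℕ) (k : Fin 3) : BlkMat p :=
  (-(gen p.1 k)ᵀ) ⊗ₖ (1 : Matrix (Fin (p.2 + 1)) (Fin (p.2 + 1)) ℂ)

/-- The action on coefficients of the derivative along the second factor. -/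
def opT (p : ℕ × ℕ) (k : Fin 3) : BlkMat p :=
  (1 : Matrix (Fin (p.1 + 1)) (Fin (p.1 + 1)) ℂ) ⊗ₖ (-(gen p.2 k)ᵀ)

/-- The control generators with the weights of the blocks. -/
def ctrlGen (β : Finset (ℕ × ℕ)) (κ : ℕ × ℕ → ℝ) (ik : Fin 3 × Fin 3) : BlkAlg β :=
  fun p => κ p.1 • (opS p.1 ik.1 * opT p.1 ik.2)

/-- Fixed by the real structure. -/
def IsRealBlk (p : ℕ × ℕ) (M : BlkMat p) : Prop :=
  (conjJ p.1 ⊗ₖ conjJ p.2) * M.map star = M * (conjJ p.1 ⊗ₖ conjJ p.2)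

/-- The Lie algebra of targets. -/
def IsTangent {β : Finset (ℕ × ℕ)} (X : BlkAlg β) : Prop :=
  ∀ p : β, IsRealBlk p.1 (X p) ∧ (X p).trace = 0 ∧ (p.1.1 = 0 ∨ p.1.2 = 0 → X p = 0)

/-- The group of targets. -/
def IsTarget {β : Finset (ℕ × ℕ)} (M : BlkAlg β) : Prop :=
  ∀ p : β, IsRealBlk p.1 (M p) ∧ (M p).det = 1 ∧ (p.1.1 = 0 ∨ p.1.2 = 0 → M p = 1)

/-- The weights separate the blocks. -/
def Separates (β : Finset (ℕ × ℕ)) (κ : ℕ × ℕ → ℝ) : Prop :=
  (∀ p ∈ β, κ p ≠ 0) ∧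
    Set.InjOn (fun p => (κ p ^ 2 * cas p.1, κ p ^ 2 * cas p.2)) (β : Set (ℕ × ℕ))

/-- The value of a word with fixed letters. -/
def ctrlWord (β : Finset (ℕ × ℕ)) (κ : ℕ × ℕ → ℝ) {n : ℕ} (i : Fin n → Fin 3 × Fin 3)
    (x : Fin n → ℝ) : BlkAlg β :=
  (List.ofFn fun k => exp (x k • ctrlGen β κ (i k))).prod

end Vale.Agent.P225
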