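import Vale.Agent.P225.Group.Targets.Sep

/-!
P225, module D: the group of targets near the identity, and reaching exponentials by words.
-/

noncomputable section

namespace Vale.Agent.P225

open NormedSpace Matrix SU2 Filter Topology
open scoped ComplexOrder Kronecker Matrix.Norms.L2Operator

variable {β : Finset (ℕ × ℕ)} {κ : ℕ × ℕ → ℝ}

theorem exp_mem_subalgebra {𝔸 : Type*} [NormedRing 𝔸] [NormedAlgebra ℝ 𝔸] [CompleteSpace 𝔸]
    [FiniteDimensional ℝ 𝔸] (A : Subalgebra ℝ 𝔸) {x : 𝔸} (hx : x ∈ A) : exp x ∈ A := by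
  have hcl : IsClosed (A.toSubmodule : Set 𝔸) := Submodule.closed_of_finiteDimensional _
  refine hcl.mem_of_tendsto (NormedSpace.exp_series_hasSum_exp' (𝕂 := ℝ) x) ?_
  exact Eventually.of_forall fun s => Submodule.sum_mem _ fun n _ =>
    Submodule.smul_mem _ _ (A.pow_mem hx n)

theorem isRealBlk_iff {p : ℕ × ℕ} {M : BlkMat p} : IsRealBlk p M ↔ M ∈ realForm (blkJ p) :=
  Iff.rfl

/-- Tangent elements as a subspace. -/
def tanSub (β : Finset (ℕ × ℕ)) : Submodule ℝ (BlkAlg β) where
  carrier := {X | IsTangent X}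
  add_mem' {X Y} hX hY p := ⟨(realForm _).add_mem (hX p).1 (hY p).1,
    by simp [(hX p).2.1, (hY p).2.1], fun h => by simp [(hX p).2.2 h, (hY p).2.2 h]⟩
  zero_mem' p := ⟨(realForm _).zero_mem, by simp, fun _ => rfl⟩
  smul_mem' c X hX p := ⟨(realForm _).smul_mem (hX p).1 c,
    by simp [(hX p).2.1], fun h => by simp [(hX p).2.2 h]⟩

theorem IsTarget.one : IsTarget (1 : BlkAlg β) := fun _ =>
  ⟨(realForm _).one_mem, Matrix.det_one, fun _ => rfl⟩

theorem IsTarget.mul {M N : BlkAlg β} (hM : IsTarget M) (hN : IsTarget N) : IsTarget (M * N) :=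
  fun p => ⟨(realForm _).mul_mem (hM p).1 (hN p).1,
    by rw [Pi.mul_apply, Matrix.det_mul, (hM p).2.1, (hN p).2.1, one_mul],
    fun h => by rw [Pi.mul_apply, (hM p).2.2 h, (hN p).2.2 h, one_mul]⟩

theorem exp_isTarget {X : BlkAlg β} (hX : IsTangent X) : IsTarget (exp X) := by
  intro p
  let : ∀ q : β, NormedAlgebra ℚ (BlkMat q.1) := fun q =>
    NormedAlgebra.restrictScalars ℚ ℝ _
  have e : exp X p = exp (X p) := by
    rw [Pi.exp_def]
  rw [e]
  refine ⟨exp_mem_subalgebra (realForm (blkJ p.1)) (hX p).1, ?_, fun h => ?_⟩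
  · simpa using det_exp_smul (hX p).2.1 1
  · rw [(hX p).2.2 h, exp_zero]

theorem ctrlGen_tangent (β : Finset (ℕ × ℕ)) (κ : ℕ × ℕ → ℝ) (ik : Fin 3 × Fin 3) :
    ctrlGen β κ ik ∈ tanSub β := by
  intro p
  simp only [ctrlGen, opS_mul_opT]
  refine ⟨(realForm _).smul_mem (kronecker_real (coGen_real _ _) (coGen_real _ _)) _, ?_, ?_⟩
  · rw [Matrix.trace_smul, Matrix.trace_kronecker, coGen_trace, zero_mul, smul_zero]
  · obtain ⟨⟨a, c⟩, hp⟩ := p
    rintro (rfl | rfl) <;> simp [coGen_zero]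

theorem wordVal_isTarget (w : List ((Fin 3 × Fin 3) × ℝ)) :
    IsTarget (wordVal (ctrlGen β κ) w) := by
  induction w with
  | nil => exact IsTarget.one
  | cons q w ih => exact (exp_isTarget ((tanSub β).smul_mem _ (ctrlGen_tangent β κ q.1))).mul ih

theorem conj_tangent {M M' X : BlkAlg β} (hM : IsTarget M) (hM' : IsTarget M')
    (hinv : M * M' = 1) (hX : IsTangent X) : IsTangent (M * X * M') := by
  intro p
  refine ⟨(realForm _).mul_mem ((realForm _).mul_mem (hM p).1 (hX p).1) (hM' p).1, ?_,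
    fun h => by simp [(hX p).2.2 h]⟩
  have : M' p * M p = 1 := mul_eq_one_comm.1 (congrFun hinv p)
  rw [Pi.mul_apply, Pi.mul_apply, Matrix.trace_mul_comm, ← mul_assoc, this, one_mul]
  exact (hX p).2.1

/-- A linear retraction onto the tangent space, injective on targets near the identity. -/
theorem exists_retraction (β : Finset (ℕ × ℕ)) :
    ∃ π : BlkAlg β →L[ℝ] tanSub β, (∀ X : tanSub β, π X = X) ∧
      ∃ W ∈ 𝓝 (1 : BlkAlg β), ∀ u ∈ W, ∀ v ∈ W, IsTarget u → IsTarget v → π u = π v → u = v := by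
  classical
  obtain ⟨q, hq⟩ := LinearMap.exists_extend (p := tanSub β) (LinearMap.id : tanSub β →ₗ[ℝ] tanSub β)
  let π' : BlkAlg β →ₗ[ℝ] BlkAlg β :=
    { toFun := fun d p => d p - ((d p).trace / Fintype.card (Fin (p.1.1 + 1) × Fin (p.1.2 + 1))) • 1
      map_add' := fun d e => by
        funext p
        simp only [Pi.add_apply, Matrix.trace_add, add_div, add_smul]
        abel
      map_smul' := fun c d => by
        funext p
        simp only [Pi.smul_apply, RingHom.id_apply, Matrix.trace_smul, smul_sub, Complex.real_smul,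
          mul_div_assoc, mul_smul, Complex.coe_smul] }
  refine ⟨LinearMap.toContinuousLinearMap (q.comp π'), fun X => ?_, ?_⟩
  · have : π' X = X := by
      funext p
      simp [π', (X.2 p).2.1]
    show q (π' X) = X
    rw [this]
    exact LinearMap.congr_fun hq X
  choose W hW hWdet using fun p : β => exists_nhds_det_scalar (n := Fin (p.1.1 + 1) × Fin (p.1.2 + 1))
  refine ⟨{u | ∀ p, u p ∈ W p}, eventually_all.2 fun p =>
    (continuous_apply p).tendsto (1 : BlkAlg β) (hW p), fun u hu v hv tu tv huv => ?_⟩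
  funext p
  have hmem : π' (u - v) ∈ tanSub β := by
    intro r
    have hd : u r - v r ∈ realForm (blkJ r.1) :=
      Subalgebra.sub_mem (realForm (blkJ r.1)) (tu r).1 (tv r).1
    refine ⟨?_, ?_, fun h => ?_⟩
    · show (u r - v r) - _ ∈ realForm (blkJ r.1)
      refine Subalgebra.sub_mem _ hd ?_
      have htr := realForm_trace (blkJ_mul_inv r.1) hd
      obtain ⟨t, ht⟩ := Complex.conj_eq_iff_real.1 htr
      show ((u r - v r).trace / _) • (1 : BlkMat r.1) ∈ realForm (blkJ r.1)
      rw [ht, ← Complex.ofReal_natCast, ← Complex.ofReal_div, Complex.coe_smul]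
      exact (realForm _).smul_mem (realForm _).one_mem _
    · simp [π', mul_ne_zero (Nat.cast_add_one_ne_zero (R := ℂ) r.1.1)
        (Nat.cast_add_one_ne_zero (R := ℂ) r.1.2)]
    · simp [π', (tu r).2.2 h, (tv r).2.2 h]
  have h0 : q (π' (u - v)) = 0 := by
    have : q (π' u) = q (π' v) := huv
    rw [map_sub, map_sub, this, sub_self]
  have h1 : π' (u - v) = 0 := by
    have := LinearMap.congr_fun hq ⟨_, hmem⟩
    simp only [LinearMap.comp_apply, Submodule.subtype_apply, h0, LinearMap.id_apply] at this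
    exact (congrArg Subtype.val this).symm
  refine hWdet p _ (hu p) _ (hv p)
    ((u p - v p).trace / Fintype.card (Fin (p.1.1 + 1) × Fin (p.1.2 + 1))) ?_ ?_
  · exact sub_eq_zero.1 (congrFun h1 p)
  · rw [(tu p).2.1, (tv p).2.1]

/-- Finitely many conjugated generators cover the tangent space at the identity, and some word
has each value `exp X`. -/
theorem exists_local_words (hκ : Separates β κ) :
    ∃ (π : BlkAlg β →L[ℝ] tanSub β) (W : Set (BlkAlg β)) (n : ℕ)
      (w : Fin n → List ((Fin 3 × Fin 3) × ℝ)) (i : Fin n → Fin 3 × Fin 3)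
      (D : (Fin n → ℝ) →L[ℝ] BlkAlg β),
      W ∈ 𝓝 (1 : BlkAlg β) ∧
      (∀ u ∈ W, ∀ v ∈ W, IsTarget u → IsTarget v → π u = π v → u = v) ∧
      HasStrictFDerivAt (wordMap (ctrlGen β κ) w i) D 0 ∧ Function.Surjective (π ∘ D) ∧
      ∀ X, IsTangent X → ∃ w0, wordVal (ctrlGen β κ) w0 = exp X := by
  obtain ⟨π, hπ, W, hW, hinj⟩ := exists_retraction β
  obtain ⟨n, w, i, hspan⟩ := exists_words_span (ctrlGen β κ)
  set D := ∑ k, (ContinuousLinearMap.proj (R := ℝ) (φ := fun _ : Fin n => ℝ) k).smulRight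
    (wordConj (ctrlGen β κ) (w k) (ctrlGen β κ (i k))) with hDdef
  have hD : HasStrictFDerivAt (wordMap (ctrlGen β κ) w i) D 0 := wordMap_hasStrictFDerivAt _ w i
  have hsurj : Function.Surjective (π ∘ D) := by
    intro X
    obtain ⟨c, hc⟩ := (Submodule.mem_span_range_iff_exists_fun ℝ).1
      (hspan (tangent_mem_aux hκ X.2))
    refine ⟨c, ?_⟩
    have : D c = X := by simpa [D] using hc
    rw [Function.comp_apply, this, hπ]
  refine ⟨π, W, n, w, i, D, hW, hinj, hD, hsurj, fun X hX => ?_⟩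
  -- word values near the identity
  have hv : ∀ x, ∃ l, wordVal (ctrlGen β κ) l = wordMap (ctrlGen β κ) w i x := by
    intro x
    refine ⟨((List.finRange n).map fun k => w k ++ (i k, x k) :: wordRev (w k)).flatten, ?_⟩
    rw [wordMap, List.ofFn_eq_map]
    induction List.finRange n with
    | nil => rfl
    | cons k l ih =>
      rw [List.map_cons, List.flatten_cons, wordVal_append, ih, List.map_cons, List.prod_cons,
        wordVal_append]
      simp [wordVal, wordConj, mul_assoc]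
  have hπD := π.hasStrictFDerivAt.comp (0 : Fin n → ℝ) hD
  have hmap := hπD.map_nhds_eq_of_surj (LinearMap.range_eq_top.2 hsurj)
  have hwm0 : wordMap (ctrlGen β κ) w i 0 = 1 := by
    refine List.prod_eq_one fun a ha => ?_
    obtain ⟨k, rfl⟩ := List.mem_ofFn.1 ha
    simp [wordConj, wordVal_mul_rev]
  have hnear : π '' ((wordMap (ctrlGen β κ) w i) '' (wordMap (ctrlGen β κ) w i ⁻¹' W)) ∈
      𝓝 (π 1) := by
    rw [← Set.image_comp, ← hwm0]
    refine hmap ▸ Filter.image_mem_map ?_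
    exact hD.continuousAt.preimage_mem_nhds (by rwa [hwm0])
  have hev : ∀ᶠ t : ℝ in 𝓝 0, exp (t • X) ∈ W ∧
      π (exp (t • X)) ∈ π '' ((wordMap (ctrlGen β κ) w i) '' (wordMap (ctrlGen β κ) w i ⁻¹' W)) := by
    let : NormedAlgebra ℚ (BlkAlg β) := NormedAlgebra.restrictScalars ℚ ℝ _
    have hc : Tendsto (fun t : ℝ => exp (t • X)) (𝓝 0) (𝓝 1) := by
      have := (exp_continuous (𝔸 := BlkAlg β)).tendsto ((0 : ℝ) • X)
      rw [zero_smul, exp_zero] at this
      exact this.comp (by simpa using (tendsto_id (x := 𝓝 (0 : ℝ))).smul_const X)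
    exact (hc.eventually_mem hW).and ((π.continuous.tendsto 1).comp hc |>.eventually_mem hnear)
  obtain ⟨N, hN⟩ := ((tendsto_one_div_add_atTop_nhds_zero_nat (𝕜 := ℝ)).eventually hev).exists
  obtain ⟨hNW, a, ⟨x, hx, rfl⟩, hxa⟩ := hN
  obtain ⟨l, hl⟩ := hv x
  have heq : wordMap (ctrlGen β κ) w i x = exp ((1 / ((N : ℝ) + 1)) • X) :=
    hinj _ hx _ hNW (hl ▸ wordVal_isTarget l) (exp_isTarget ((tanSub β).smul_mem _ hX)) hxa
  refine ⟨(List.replicate (N + 1) l).flatten, ?_⟩
  have hpow : ∀ m : ℕ, wordVal (ctrlGen β κ) (List.replicate m l).flatten =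
      exp ((1 / ((N : ℝ) + 1)) • X) ^ m := by
    intro m
    induction m with
    | zero => simp [wordVal]
    | succ m ih => rw [List.replicate_succ, List.flatten_cons, wordVal_append, ih, hl, heq, pow_succ']
  rw [hpow]
  let : NormedAlgebra ℚ (BlkAlg β) := NormedAlgebra.restrictScalars ℚ ℝ _
  rw [← NormedSpace.exp_nsmul, ← Nat.cast_smul_eq_nsmul ℝ, smul_smul]
  push_cast
  rw [mul_one_div_cancel (by positivity : (N : ℝ) + 1 ≠ 0), one_smul]

end Vale.Agent.P225
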