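import Vale.Agent.P225.Group.Targets.Block
import Vale.Agent.P225.Group.Words
import Vale.Agent.P225.Group.Blocks

/-!
P225, module D: the weights separate the blocks, so each traceless real element is in the bracket
algebra of the control generators.
-/

noncomputable section

namespace Vale.Agent.P225

open NormedSpace Matrix SU2
open scoped ComplexOrder Kronecker Matrix.Norms.L2Operator

theorem bracketSpan_closed {𝔸 : Type*} [NormedRing 𝔸] [NormedAlgebra ℝ 𝔸] {ι : Type*}
    (B : ι → 𝔸) : IsBracketClosed (bracketSpan B) := by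
  set V := bracketSpan B
  have hgen : ∀ i, B i ∈ V := fun i => Submodule.mem_sInf.2 fun W hW => hW.1 i
  have hbr : ∀ i, ∀ Y ∈ V, B i * Y - Y * B i ∈ V := fun i Y hY =>
    Submodule.mem_sInf.2 fun W hW => hW.2 i Y (Submodule.mem_sInf.1 hY W hW)
  let W : Submodule ℝ 𝔸 :=
    { carrier := {Z | ∀ Y ∈ V, Z * Y - Y * Z ∈ V}
      add_mem' := fun {a b} ha hb Y hY => by
        rw [add_mul, mul_add, add_sub_add_comm]; exact V.add_mem (ha Y hY) (hb Y hY)
      zero_mem' := fun Y _ => by simp
      smul_mem' := fun c a ha Y hY => by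
        rw [smul_mul_assoc, mul_smul_comm, ← smul_sub]; exact V.smul_mem c (ha Y hY) }
  have hW : V ≤ V ⊓ W := by
    refine sInf_le ⟨fun i => ⟨hgen i, fun Y hY => hbr i Y hY⟩, ?_⟩
    rintro i Z ⟨hZ, hZ'⟩
    refine ⟨hbr i Z hZ, fun Y hY => ?_⟩
    rw [show (B i * Z - Z * B i) * Y - Y * (B i * Z - Z * B i) =
      (B i * (Z * Y - Y * Z) - (Z * Y - Y * Z) * B i) -
        (Z * (B i * Y - Y * B i) - (B i * Y - Y * B i) * Z) by noncomm_ring]
    exact V.sub_mem (hbr i _ (hZ' Y hY)) (hZ' _ (hbr i Y hY))
  exact fun x hx => (hW hx).2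

variable {β : Finset (ℕ × ℕ)}

/-- Scalars on each block. -/
def scal : (↥β → ℝ) →ₐ[ℝ] BlkAlg β :=
  AlgHom.pi fun p => (Algebra.ofId ℝ (BlkMat p.1)).comp (Pi.evalAlgHom ℝ (fun _ => ℝ) p)

theorem scal_apply (h : ↥β → ℝ) (p : ↥β) : scal h p = algebraMap ℝ (BlkMat p.1) (h p) := rfl

theorem scal_commute (h : ↥β → ℝ) (x : BlkAlg β) : Commute (scal h) x :=
  funext fun p => Algebra.commutes (h p) (x p)

theorem indicator_factor {g : Submodule ℝ (BlkAlg β)} {S T : Fin 3 → BlkAlg β} {k u v : ↥β → ℝ}
    (h : BlockData g S T (scal k) (scal u) (scal v))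
    (hinj : Function.Injective fun q => (u q * k q * k q, v q * k q * k q)) (p : ↥β)
    (hp : v p * k p * k p ≠ 0) : IsFactor g S (scal (Pi.single p 1)) := by
  classical
  set X : ↥β → ℝ := u * k * k
  set Y : ↥β → ℝ := v * k * k
  let W : Submodule ℝ (↥β → ℝ) :=
    Submodule.span ℝ {w | ∃ m n : ℕ, X ^ m * Y ^ (n + 1) = w}
  have hX : ∀ w ∈ W, X * w ∈ W := by
    intro w hw
    induction hw using Submodule.span_induction with
    | mem w hw =>
      obtain ⟨m, n, rfl⟩ := hw
      exact Submodule.subset_span ⟨m + 1, n, by rw [pow_succ', mul_assoc]⟩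
    | zero => simp
    | add a b _ _ ha hb => rw [mul_add]; exact W.add_mem ha hb
    | smul c a _ ha => rw [mul_smul_comm]; exact W.smul_mem c ha
  have hY : ∀ w ∈ W, Y * w ∈ W := by
    intro w hw
    induction hw using Submodule.span_induction with
    | mem w hw =>
      obtain ⟨m, n, rfl⟩ := hw
      exact Submodule.subset_span ⟨m, n + 1, by rw [pow_succ' Y (n + 1)]; ring⟩
    | zero => simp
    | add a b _ _ ha hb => rw [mul_add]; exact W.add_mem ha hb
    | smul c a _ ha => rw [mul_smul_comm]; exact W.smul_mem c ha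
  have hprod : ∀ T : Finset ↥β, p ∉ T → ∃ w ∈ W, w p ≠ 0 ∧ ∀ q ∈ T, w q = 0 := by
    intro T
    induction T using Finset.induction_on with
    | empty => exact fun _ => ⟨Y, Submodule.subset_span ⟨0, 0, by simp⟩, hp, by simp⟩
    | insert q T hq ih =>
      intro hpT
      rw [Finset.mem_insert, not_or] at hpT
      obtain ⟨w, hw, hwp, hw0⟩ := ih hpT.2
      have : X p ≠ X q ∨ Y p ≠ Y q := by
        by_contra hc
        push Not at hc
        exact hpT.1 (hinj (Prod.ext hc.1 hc.2))
      rcases this with hd | hd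
      · refine ⟨X * w - X q • w, W.sub_mem (hX w hw) (W.smul_mem _ hw), ?_, fun q' hq' => ?_⟩
        · simp only [Pi.sub_apply, Pi.mul_apply, Pi.smul_apply, smul_eq_mul, ← sub_mul]
          exact mul_ne_zero (sub_ne_zero.2 hd) hwp
        · rcases Finset.mem_insert.1 hq' with rfl | h'
          · simp
          · simp [hw0 q' h']
      · refine ⟨Y * w - Y q • w, W.sub_mem (hY w hw) (W.smul_mem _ hw), ?_, fun q' hq' => ?_⟩
        · simp only [Pi.sub_apply, Pi.mul_apply, Pi.smul_apply, smul_eq_mul, ← sub_mul]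
          exact mul_ne_zero (sub_ne_zero.2 hd) hwp
        · rcases Finset.mem_insert.1 hq' with rfl | h'
          · simp
          · simp [hw0 q' h']
  obtain ⟨w, hw, hwp, hw0⟩ := hprod (Finset.univ.erase p) (Finset.notMem_erase _ _)
  have hF : IsFactor g S (scal w) := by
    clear hwp hw0
    induction hw using Submodule.span_induction with
    | mem w hw =>
      obtain ⟨m, n, rfl⟩ := hw
      have := isFactor_poly h (scal X) (scal Y) (by simp [X]) (by simp [Y]) m n
      simpa using this
    | zero => rw [map_zero]; exact ⟨Commute.zero_left, fun i => by simp⟩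
    | add a b _ _ ha hb => rw [map_add]; exact IsFactor.add ha hb
    | smul c a _ ha => rw [map_smul]; exact IsFactor.smul ha c
  have : Pi.single p (1 : ℝ) = (w p)⁻¹ • w := by
    funext q
    by_cases hq : q = p
    · subst hq; simp [hwp]
    · simp [hq, hw0 q (Finset.mem_erase.2 ⟨hq, Finset.mem_univ q⟩)]
  rw [this, map_smul]
  exact IsFactor.smul hF _

theorem tangent_mem_aux {κ : ℕ × ℕ → ℝ} (hκ : Separates β κ) {X : BlkAlg β} (hX : IsTangent X) :
    X ∈ bracketSpan (ctrlGen β κ) := by
  classical
  set g := bracketSpan (ctrlGen β κ)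
  set S : Fin 3 → BlkAlg β := fun i p => opS p.1 i
  set T : Fin 3 → BlkAlg β := fun i p => opT p.1 i
  set k : ↥β → ℝ := fun p => κ p.1
  set u : ↥β → ℝ := fun p => -cas p.1.1
  set v : ↥β → ℝ := fun p => -cas p.1.2
  have hgen : ∀ i j, ctrlGen β κ (i, j) ∈ g := fun i j =>
    Submodule.mem_sInf.2 fun W hW => hW.1 (i, j)
  have hKST : ∀ i j, scal k * S i * T j = ctrlGen β κ (i, j) := by
    intro i j; funext p
    simp [S, T, k, ctrlGen, scal_apply, Algebra.algebraMap_eq_smul_one]
  have hd : BlockData g S T (scal k) (scal u) (scal v) :=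
    { closed := bracketSpan_closed _
      comm := fun i j => funext fun p => (opS_opT_commute p.1 i j).eq
      bracketS := fun i => ⟨i + 1, i + 2, funext fun p => opS_bracket p.1 i⟩
      bracketT := fun i => ⟨i + 1, i + 2, funext fun p => opT_bracket p.1 i⟩
      casS := funext fun p => by
        rw [Finset.sum_apply, scal_apply, Algebra.algebraMap_eq_smul_one]
        exact opS_casimir p.1
      casT := funext fun p => by
        rw [Finset.sum_apply, scal_apply, Algebra.algebraMap_eq_smul_one]
        exact opT_casimir p.1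
      central := fun x => ⟨scal_commute _ x, scal_commute _ x, scal_commute _ x⟩
      gen := fun i j => by rw [hKST]; exact hgen i j }
  have hinj : Function.Injective fun q => (u q * k q * k q, v q * k q * k q) := by
    intro q q' h
    simp only [u, v, k, Prod.mk.injEq] at h
    refine Subtype.ext (hκ.2 q.2 q'.2 (Prod.ext ?_ ?_))
    · simp only; linear_combination -h.1
    · simp only; linear_combination -h.2
  have hblock : ∀ p : ↥β, Pi.single p (X p) ∈ g := by
    intro p
    by_cases h0 : p.1.1 = 0 ∨ p.1.2 = 0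
    · rw [(hX p).2.2 h0, Pi.single_zero]; exact g.zero_mem
    rw [not_or] at h0
    have hk : k p ≠ 0 := hκ.1 _ p.2
    have eS := indicator_factor hd hinj p
      (mul_ne_zero (mul_ne_zero (cas_ne h0.2) hk) hk)
    have eT := indicator_factor hd.symm (fun q q' h => hinj (by
      simp only [Prod.mk.injEq] at h ⊢; exact ⟨h.2, h.1⟩)) p
      (mul_ne_zero (mul_ne_zero (cas_ne h0.1) hk) hk)
    have hsingle : ∀ M : BlkAlg β, scal (Pi.single p 1) * M = Pi.single p (M p) := by
      intro M; funext q
      by_cases hq : q = p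
      · subst hq; simp [scal_apply]
      · simp [scal_apply, hq]
    let inc : BlkMat p.1 →ₗ[ℝ] BlkAlg β := LinearMap.single ℝ (fun q : ↥β => BlkMat q.1) p
    have hmul : ∀ a b, inc (a * b) = inc a * inc b := fun a b => by
      funext q
      by_cases hq : q = p
      · subst hq; simp [inc]
      · simp [inc, hq]
    refine block_mem p.1 h0.1 h0.2 (g := g.comap inc) ?_ ?_ ?_ ?_ (hX p).1 (hX p).2.1
    · intro a ha b hb
      rw [Submodule.mem_comap, map_sub, hmul, hmul]
      exact bracketSpan_closed _ _ ha _ hb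
    · intro i
      have := eS.2 i
      rw [hsingle] at this
      exact this
    · intro i
      have := eT.2 i
      rw [hsingle] at this
      exact this
    · intro i j
      have h1 := IsFactor.mulK hd eS i j
      rw [mul_assoc (scal (Pi.single p 1) * scal k), mul_assoc, hsingle] at h1
      have h2 := g.smul_mem (k p)⁻¹ h1
      rw [← Pi.single_smul] at h2
      simpa [S, T, scal_apply, Algebra.algebraMap_eq_smul_one, smul_smul, hk, inc] using h2
  have : X = ∑ p, Pi.single p (X p) := (Finset.univ_sum_single X).symm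
  rw [this]
  exact g.sum_mem fun p _ => hblock p

end Vale.Agent.P225
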